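import Vale.Agent.P011UQ.IF
import Vale.Agent.P011LQ.Two
import Vale.Agent.P011.H505.WangB

/-!
The division algebra of a projective action, in every characteristic.
-/

open Matrix Module TensorProduct IntermediateField

namespace Vale.Agent.P011UQ6

open Vale.Agent.P011 Vale.Agent.P011LD Vale.Agent.P011LQ Vale.Agent.P011.W
  Vale.Agent.P011.Even.LocDiv

variable {k K : Type} [Field k] [Field K] [Algebra k K] {n : Type} [Fintype n] [DecidableEq n]
  {p : ℕ} {A : (K ≃ₐ[k] K) → GL n K} {l : (K ≃ₐ[k] K) → K}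
  {S : Subalgebra k (Matrix n n K)} {Ω : Type} [Field Ω]

/-- The division algebra of a form. -/
theorem wed [Nonempty n] [IsGalois k K] (h : Frm S) :
    ∃ (s d : ℕ) (_ : NeZero s) (D : Type) (_ : DivisionRing D) (_ : Algebra k D)
      (_ : FiniteDimensional k D) (_ : Algebra.IsCentral k D)
      (_ : S ≃ₐ[k] Matrix (Fin s) (Fin s) D), s * d = Fintype.card n ∧
      Module.finrank k D = d ^ 2 := by
  have := h.simple
  obtain ⟨_, hr⟩ := h.finrank
  have : IsArtinianRing S := IsArtinianRing.of_finite k _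
  obtain ⟨s, hs, D, i1, i2, i3, ⟨ψ⟩⟩ := IsSimpleRing.exists_algEquiv_matrix_divisionRing_finite k S
  have hcen : Algebra.IsCentral k D := by
    refine ⟨fun c hc => ?_⟩
    rw [Subalgebra.mem_center_iff] at hc
    obtain ⟨e, he⟩ := h.scalar (RingHom.id K) (M := (ψ.symm (Matrix.scalar (Fin s) c)).1)
      fun x hx => by
        have : ψ.symm (Matrix.scalar (Fin s) c) * ⟨x, hx⟩ =
            ⟨x, hx⟩ * ψ.symm (Matrix.scalar (Fin s) c) := ψ.injective (by
          rw [map_mul, map_mul, ψ.apply_symm_apply]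
          ext i j
          rw [Matrix.scalar_apply, Matrix.mul_diagonal, Matrix.diagonal_mul]
          exact (hc _).symm)
        exact congrArg Subtype.val this
    obtain ⟨b, -, h2⟩ := h
    obtain ⟨i, hi⟩ : ∃ i, b.repr 1 i ≠ 0 := by
      by_contra hc
      refine one_ne_zero (b.repr.injective (Finsupp.ext fun i => ?_) : (1 : Matrix n n K) = 0)
      by_contra e
      exact hc ⟨i, by simpa using e⟩
    obtain ⟨x, hx⟩ := h2 _ (ψ.symm (Matrix.scalar (Fin s) c)).2 i
    obtain ⟨y, hy⟩ := h2 _ S.one_mem i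
    rw [he, map_smul, Finsupp.smul_apply, smul_eq_mul] at hx
    have h3 : algebraMap k K (x / y) = e := by rw [map_div₀, hx, hy, mul_div_cancel_right₀ _ hi]
    have h1 : Matrix.scalar (Fin s) c = algebraMap k (Matrix (Fin s) (Fin s) D) (x / y) := by
      rw [← ψ.apply_symm_apply (Matrix.scalar (Fin s) c), ← ψ.commutes]
      congr 1
      exact Subtype.ext (by
        rw [he, ← h3, algebraMap_smul, Algebra.algebraMap_eq_smul_one]; rfl)
    have h2 := congrFun (congrFun h1 0) 0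
    rw [Matrix.scalar_apply, Matrix.diagonal_apply_eq, Matrix.algebraMap_matrix_apply,
      if_pos rfl] at h2
    exact Algebra.mem_bot.2 ⟨_, h2.symm⟩
  have h2 := H505.Wang.corner_dim (((Matrix.reindexAlgEquiv k K (Fintype.equivFin n)).toAlgHom.comp
    S.val).comp ψ.symm.toAlgHom)
  refine ⟨s, _, hs, D, i1, i2, i3, hcen, ψ, h2, ?_⟩
  have h1 := ψ.toLinearEquiv.finrank_eq
  rw [hr, Module.finrank_matrix, Fintype.card_fin, ← h2, mul_pow, ← pow_two] at h1
  exact (Nat.eq_of_mul_eq_mul_left (pow_pos (NeZero.pos s) 2) h1).symm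

/-- Representations of the form and splittings of its division algebra. -/
theorem rep_iff' {s d : ℕ} [NeZero s] {D : Type} [DivisionRing D] [Algebra k D]
    (e : S ≃ₐ[k] Matrix (Fin s) (Fin s) D) (hs : s * d = Fintype.card n) (φ : k →+* Ω) :
    Spl D d φ ↔ ∃ ψ : S →+* Matrix n n Ω, ∀ c : k, ψ (algebraMap k S c) = φ c • 1 := by
  let _ : Algebra k Ω := φ.toAlgebra
  have e1 : Spl D d φ ↔ Nonempty (D →ₐ[k] Matrix (Fin d) (Fin d) Ω) := spl_iff (F := k) (R := Ω)
  rw [e1]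
  constructor
  · rintro ⟨f⟩
    let g : S →ₐ[k] Matrix n n Ω := ((Matrix.reindexAlgEquiv k Ω (Fintype.equivOfCardEq
      (by simp [hs]))).toAlgHom.comp ((Matrix.compAlgEquiv (Fin s) (Fin d) Ω k).toAlgHom.comp
      (f.mapMatrix : Matrix (Fin s) (Fin s) D →ₐ[k] _))).comp e.toAlgHom
    exact ⟨g, fun c => (g.commutes c).trans (by
      rw [Algebra.algebraMap_eq_smul_one, ← algebraMap_smul Ω]; rfl)⟩
  · rintro ⟨ψ, hψ⟩
    let g : S →ₐ[k] Matrix n n Ω := ⟨ψ, fun c => (hψ c).trans (by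
      rw [Algebra.algebraMap_eq_smul_one, ← algebraMap_smul Ω]; rfl)⟩
    obtain ⟨f, -⟩ := H505.Wang.exists_corner (((Matrix.reindexAlgEquiv k Ω
      (Fintype.equivFin n)).toAlgHom.comp g).comp e.symm.toAlgHom) hs
    exact ⟨f⟩

theorem ex_sep (R W : Type) [Field R] [Field W] [Algebra R W] [Algebra.IsSeparable R W] :
    ∃ (Ω : Type) (_ : Field Ω) (_ : Algebra W Ω) (_ : Algebra R Ω), IsScalarTower R W Ω ∧
      IsSepClosed Ω ∧ IsGalois R Ω := by
  let _ : Algebra R (SeparableClosure W) :=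
    ((algebraMap W (SeparableClosure W)).comp (algebraMap R W)).toAlgebra
  have : IsScalarTower R W (SeparableClosure W) := IsScalarTower.of_algebraMap_eq fun _ => rfl
  have : IsSepClosure R (SeparableClosure W) :=
    ⟨inferInstance, Algebra.IsSeparable.trans R W _⟩
  exact ⟨SeparableClosure W, _, _, _, ‹_›, inferInstance, inferInstance⟩

/-- **The exponent bound.** -/
theorem norm' [Nonempty n] [IsGalois k K] (h : PA ⊤ p A l) {R W : Type} [Field R]
    [Algebra k R] [Field W] [Algebra R W] [Algebra.IsSeparable R W] (σ : W ≃ₐ[R] W) {m : ℕ}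
    (m0 : 0 < m) (hm : ∀ w, σ^[m] w = w) (ψ : A0 A →+* Matrix n n W)
    (hψ : ∀ c : k, ψ (algebraMap k _ c) = algebraMap R W (algebraMap k R c) • 1)
    {Q : Matrix n n W} (hQ : ∀ x, Q * (ψ x).map σ = ψ x * Q) (hQ2 : Q.map σ = Q) {γ : W}
    (γ0 : γ ≠ 0) (hγ : Q ^ m = γ • 1) : ∃ ν : W, ∏ i ∈ Finset.range m, σ^[i] ν = γ ^ p := by
  obtain ⟨Ω, _, _, _, _, _, _⟩ := ex_sep R W
  let j := algebraMap W Ω
  let _ : Algebra k Ω := ((algebraMap R Ω).comp (algebraMap k R)).toAlgebra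
  have : IsScalarTower k R Ω := IsScalarTower.of_algebraMap_eq fun _ => rfl
  let ι : K →ₐ[k] Ω := IsSepClosed.lift
  let _ : Algebra K Ω := ι.toRingHom.toAlgebra
  have : IsScalarTower k K Ω := IsScalarTower.of_algebraMap_eq fun c => (ι.commutes c).symm
  let res : (Ω ≃ₐ[R] Ω) → (K ≃ₐ[k] K) := fun τ => (τ.restrictScalars k).restrictNormal K
  have hr : ∀ τ x, ι.toRingHom (res τ x) = τ (ι.toRingHom x) := fun τ x =>
    AlgEquiv.restrictNormal_commutes (τ.restrictScalars k) K x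
  have jm : ∀ (c : W) (M : Matrix n n W), (c • M).map j = j c • M.map j := fun c M =>
    Matrix.ext fun _ _ => map_mul j _ _
  have j1 : (1 : Matrix n n W).map j = 1 := Matrix.map_one _ (map_zero j) (map_one j)
  obtain ⟨g, hg⟩ := h.frm.conj ι.toRingHom (j.mapMatrix.comp ψ) fun c => by
    rw [RingHom.comp_apply, hψ, RingHom.mapMatrix_apply, jm, j1]
    congr 1
    exact (IsScalarTower.algebraMap_apply R W Ω _).symm.trans (ι.commutes c).symm
  replace hg : ∀ x : A0 A, x.1.map ι.toRingHom * g.1 = g.1 * (ψ x).map j := hg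
  have H := h.base ι.toRingHom res (fun _ => trivial) hr g
  have hg' : ∀ x : A0 A, g⁻¹.1 * x.1.map ι.toRingHom = (ψ x).map j * g⁻¹.1 := fun x => by
    rw [Units.eq_mul_inv_iff_mul_eq, Matrix.mul_assoc, hg, Units.inv_mul_cancel_left]
  have b1 : ∀ (τ : Ω ≃ₐ[R] Ω) x, (bc A ι.toRingHom res g τ).1 * ((ψ x).map j).map τ =
      (ψ x).map j * (bc A ι.toRingHom res g τ).1 := fun τ x => by
    have e : (x.1.map ι.toRingHom).map τ = (x.1.map (res τ)).map ι.toRingHom :=
      Matrix.ext fun a b => (hr τ _).symm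
    rw [bc_val, Matrix.mul_assoc, ← map_mul', ← hg, map_mul', e, ← Matrix.mul_assoc,
      Matrix.mul_assoc g⁻¹.1, ← Matrix.map_mul, x.2, Matrix.map_mul, ← Matrix.mul_assoc, hg']
    simp only [Matrix.mul_assoc]
  have b2 : ∀ M : Matrix n n Ω, (∀ x, M * (ψ x).map j = (ψ x).map j * M) → ∃ c : Ω, M = c • 1 :=
    fun M hM => by
      obtain ⟨c, hc⟩ := h.frm.scalar ι.toRingHom (M := g.1 * M * g⁻¹.1) fun x hx => by
        rw [Matrix.mul_assoc, hg' ⟨x, hx⟩, ← Matrix.mul_assoc, Matrix.mul_assoc g.1, hM,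
          ← Matrix.mul_assoc, ← hg]
        simp only [Matrix.mul_assoc]
      refine ⟨c, ?_⟩
      rw [← Units.inv_mul_cancel_left g M, ← Units.inv_mul_cancel_right (g.1 * M) g, hc,
        Matrix.smul_mul, Matrix.one_mul, Matrix.mul_smul, Units.inv_mul]
  let L := (IsScalarTower.toAlgHom R W Ω).fieldRange
  have hL : ∀ τ, τ ∈ L.fixingSubgroup ↔ ∀ w, τ (j w) = j w := fun τ =>
    ⟨fun e w => e ⟨j w, w, rfl⟩, fun e => by rintro ⟨_, w, rfl⟩; exact e w⟩
  let s : Ω ≃ₐ[R] Ω := σ.liftNormal Ω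
  have hs : ∀ w, s (j w) = j (σ w) := σ.liftNormal_commutes Ω
  have hs' : ∀ (i : ℕ) w, (s ^ i) (j w) = j (σ^[i] w) := fun i => by
    induction i with
    | zero => exact fun _ => rfl
    | succ i ih => intro w; rw [pow_succ, AlgEquiv.mul_apply, hs, ih]; rfl
  have sm : ∀ M : Matrix n n W, (M.map j).map s = (M.map σ).map j := fun M =>
    Matrix.ext fun a b => hs _
  obtain ⟨b, hb⟩ := b2 (Q.map j * (bc A ι.toRingHom res g s)⁻¹.1) fun x => by
    rw [← Matrix.mul_assoc, ← Matrix.map_mul, ← hQ, Matrix.map_mul, ← sm, Matrix.mul_assoc,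
      Matrix.mul_assoc]
    congr 1
    rw [Units.inv_mul_eq_iff_eq_mul, ← Matrix.mul_assoc, b1, Units.mul_inv_cancel_right]
  replace hb : Q.map j = b • (bc A ι.toRingHom res g s).1 := by
    rw [← Units.inv_mul_cancel_right (Q.map j) (bc A ι.toRingHom res g s), hb, Matrix.smul_mul,
      Matrix.one_mul]
  have hγ' : Q.map j ^ m = j γ • 1 := by
    rw [← j1, ← jm, ← hγ]
    exact (map_pow j.mapMatrix Q m).symm
  have jγ : j γ ≠ 0 := (_root_.map_ne_zero j).2 γ0
  obtain ⟨ν, h1, h2⟩ := H.core L.fixingSubgroup (fun τ t => b2 _ fun x => by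
      rw [← b1]
      congr 1
      exact Matrix.ext fun a b => ((hL τ).1 t _).symm)
    (s := s) (fun τ t => (hL _).2 fun w => by
      rw [AlgEquiv.mul_apply, AlgEquiv.mul_apply, hs, (hL τ).1 t, ← hs]
      exact s.symm_apply_apply _)
    (m := m) ((hL _).2 fun w => by rw [hs', hm]) (Q := Q.map j) (b := b) (by
      rintro rfl
      rw [hb, zero_smul, zero_pow m0.ne'] at hγ'
      exact smul_ne_zero jγ one_ne_zero hγ'.symm) hb
    (fun τ t => Matrix.ext fun a b => (hL τ).1 t _) (by rw [sm, hQ2]) jγ hγ'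
  obtain ⟨w, rfl⟩ := fixed_sub L h1
  refine ⟨w, j.injective ?_⟩
  rw [map_prod, map_pow, ← h2]
  exact Finset.prod_congr rfl fun i _ => (hs' i w).symm

/-- **The local index divides the exponent.** -/
theorem loc_dvd' [Nonempty n] [IsGalois k K] (h : PA ⊤ p A l) {s d : ℕ} {D : Type}
    [DivisionRing D] [Algebra k D] (e : A0 A ≃ₐ[k] Matrix (Fin s) (Fin s) D)
    (hs : s * d = Fintype.card n) {R : Type} [NontriviallyNormedField R] [IsUltrametricDist R]
    [ProperSpace R] [Algebra k R] {t q : ℕ} {E : Type} [i : DivisionRing E]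
    [j : Algebra R E] [FiniteDimensional R E] [Algebra.IsCentral R E]
    (f : R ⊗[k] D ≃ₐ[R] Matrix (Fin t) (Fin t) E) (ht : t * q = d)
    (hq : finrank R E = q ^ 2) : q ∣ p := by
  obtain ⟨i', j', rfl, hj, _, ⟨F⟩⟩ := local_ind (k := R) (E := E)
  obtain rfl := eq_of_heq hj
  obtain ⟨W, _, _, _, ⟨C⟩⟩ := exists_cyc (k := R) F
  obtain rfl : q = C.m := Nat.pow_left_injective two_ne_zero (hq.symm.trans (cyc_deg C).1)
  obtain ⟨X, hX⟩ := cyc_X C
  let ε : Fin s × Fin t × Fin C.m ≃ n := Fintype.equivOfCardEq (by simp [ht, hs])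
  let Θ : Matrix (Fin s) (Fin s) (Matrix (Fin t) (Fin t) E) →ₐ[R] Matrix n n W :=
    ((Matrix.reindexAlgEquiv R W ε).toAlgHom.comp
      (Matrix.compAlgEquiv (Fin s) (Fin t × Fin C.m) W R).toAlgHom).comp
      ((Matrix.compAlgEquiv (Fin t) (Fin C.m) W R).toAlgHom.comp X.mapMatrix).mapMatrix
  let sc : E →+* Matrix (Fin s) (Fin s) (Matrix (Fin t) (Fin t) E) :=
    (Matrix.scalar (Fin s)).comp (Matrix.scalar (Fin t))
  have s1 : ∀ c : R, Θ (sc (algebraMap R E c)) = algebraMap R W c • 1 := fun c =>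
    (Θ.commutes c).trans (by rw [Algebra.algebraMap_eq_smul_one, algebraMap_smul])
  let σ : W ≃ₐ[R] W := AlgEquiv.ofBijective C.σ C.σ.bijective
  have : IsGalois R W := IsGalois.of_fixedField_eq_bot R W (eq_bot_iff.2 fun x hx =>
    C.exists_base (hx ⟨σ, trivial⟩))
  have s2 : ∀ y, Θ (sc F.π⁻¹) * (Θ y).map σ = Θ y * Θ (sc F.π⁻¹) := fun y => by
    have a1 : (Θ y).map σ = Θ (y.map fun z => z.map fun x => F.π * x * F.π⁻¹) :=
      Matrix.ext fun a b => congrFun (congrFun (hX _) _) _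
    rw [a1, ← map_mul, ← map_mul]
    congr 1
    ext a b c d
    simp only [sc, RingHom.comp_apply, Matrix.scalar_apply, Matrix.diagonal_mul,
      Matrix.mul_diagonal, Matrix.map_apply]
    rw [mul_assoc F.π, inv_mul_cancel_left₀ F.π0]
  obtain ⟨ϖ, hϖ⟩ := C.exists_ϖ
  have ϖ0 : ϖ ≠ 0 := by
    rintro rfl
    exact pow_ne_zero _ F.π0 (hϖ.symm.trans (map_zero _))
  let g : D →+* Matrix (Fin t) (Fin t) E :=
    f.toRingEquiv.toRingHom.comp (Algebra.TensorProduct.includeRight (R := k) (A := R)).toRingHom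
  obtain ⟨ν, hν⟩ := norm' h σ C.m0 C.σ_m
    ((Θ.toRingHom.comp g.mapMatrix).comp e.toRingEquiv.toRingHom) (fun c => by
      rw [← s1]
      change Θ ((e (algebraMap k _ c)).map g) = _
      rw [e.commutes]
      congr 1
      have a1 : g (algebraMap k D c) = Matrix.scalar (Fin t) (algebraMap R E (algebraMap k R c)) :=
        (congrArg f ((Algebra.TensorProduct.includeRight (R := k) (A := R) (B := D)).commutes
          c)).trans (f.commutes (algebraMap k R c))
      exact (Matrix.diagonal_map (map_zero g)).trans (congrArg Matrix.diagonal (funext fun _ => a1)))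
    (Q := Θ (sc F.π⁻¹)) (fun x => s2 _) (by
      have a1 := congrArg (Θ (sc F.π) * ·) (s2 (sc F.π⁻¹))
      simpa only [← Matrix.mul_assoc, ← map_mul, mul_inv_cancel₀ F.π0, map_one, Matrix.one_mul,
        one_mul, mul_inv_cancel_left₀ F.π0] using a1) (γ := algebraMap R W ϖ⁻¹)
    ((_root_.map_ne_zero _).2 (inv_ne_zero ϖ0))
    (by rw [← map_pow, ← map_pow, inv_pow, ← hϖ, ← map_inv₀, s1])
  have a1 := C.norm_N ν
  rw [show C.N ν = _ from hν, map_pow, norm_pow, C.norm_alg, norm_inv, ← norm_algebraMap' E ϖ, hϖ,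
    norm_pow, ← inv_pow, ← pow_mul, mul_comm, pow_mul] at a1
  refine cyc_dvd C (y := ν⁻¹) ?_
  rw [map_inv₀, norm_inv, ← (pow_left_inj₀ (by positivity) (norm_nonneg _) C.m0.ne').1 a1,
    inv_pow, inv_inv]

theorem part2 {F D : Type} [Field F] [DivisionRing D] [Algebra F D] {d : ℕ} {E : Type} [Field E]
    [Algebra F E] {t q : ℕ} [NeZero t] {Δ : Type} [DivisionRing Δ] [Algebra E Δ]
    (ψ : E ⊗[F] D ≃ₐ[E] Matrix (Fin t) (Fin t) Δ) (h1 : t * q = d) (R : Type) [Field R]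
    (φ : E →+* R) : Spl D d (φ.comp (algebraMap F E)) ↔ Spl Δ q φ := by
  let _ : Algebra E R := φ.toAlgebra
  let _ : Algebra F R := (φ.comp (algebraMap F E)).toAlgebra
  have : IsScalarTower F E R := IsScalarTower.of_algebraMap_eq fun x => rfl
  refine (spl_iff (F := F) (R := R)).trans (Iff.trans ⟨?_, ?_⟩ (spl_iff (F := E) (R := R)).symm)
  · rintro ⟨g⟩
    exact (H505.Wang.exists_corner ((P011S.bcf g).comp
      (ψ.symm : Matrix (Fin t) (Fin t) Δ →ₐ[E] E ⊗[F] D)) h1).elim fun f _ => ⟨f⟩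
  · rintro ⟨f⟩
    exact H505.Wang.spl_of_part ψ h1 f

theorem ldv : P011UQ.LDV := by
  intro k K _ _ _ _ n _ _ _ p A l h
  obtain ⟨s, d, _, D, _, _, _, _, e, hs, hD⟩ := wed h.frm
  refine ⟨d, D, _, _, ‹_›, ‹_›, hD, fun R _ _ _ _ => ?_, fun r hr => ?_⟩
  · obtain ⟨t, q, _, E, _, _, _, _, f, ht, hq⟩ := H505.Wang.exists_part' hD R
    exact ⟨q, E, _, _, ‹_›, ‹_›, loc_dvd' h e hs f ht hq, hq, part2 f ht⟩
  · obtain ⟨ψ, hψ⟩ := (rep_iff' e hs _).1 hr
    exact (sp_of_rep h.frm (algebraMap k⟮r⟯ K) ψ _ (fun _ => rfl) hψ).mono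
      fun σ s => fix_adjoin s

end Vale.Agent.P011UQ6
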